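import Vale.Agent.P144D.I.U.Dom
import Vale.Agent.P144U.Geo.Cls
import Vale.Agent.P144U.Rg.All0
import Vale.Agent.P144U.Rg.Wt
import Vale.Agent.P144U.Dig.Main
import Vale.Agent.P144U.Far.Ch
import Vale.Agent.P144U.Far.Far
import Vale.Agent.P144U.SmU.W
import Vale.Agent.P144U.SmU.Small
import Vale.Agent.P144U.Uni.Main
import Vale.Agent.P144U.COr.Main
import Vale.Agent.P144U.WAn.Main

/-!
Universality in the plane and in domains with corners, with constants that do not depend on the
domain.
-/

namespace Vale.Agent.P144Z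

theorem domQ5 : DomQ5 :=
  domQ5_of (genT_of_wt wtS) (digU_of (chStmt_of shiftU) (smallW_of (smallU_of farU))
    (uniW_of farU connOr winAnd rghZ) rghZ) clsU

end Vale.Agent.P144Z
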