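import Vale.Agent.P144D.I.V.Bc
import Vale.Agent.P144U.RgZ.Main

/-!
The boundary condition of the sets dug at tips of both kinds.
-/

namespace Vale.Agent.P144Z

open B5b GeoA

namespace VBc

theorem inner {α : ℝ} (hα : 0 < α) (d : ℕ) : ∃ K : ℕ, ∀ κ : ℝ, 0 ≤ κ → κ ≤ α ^ 2 / 128 →
    ∀ S₁ S₂ ν₁ ν₂, TipS S₁ S₂ ν₁ ν₂ α κ → ∃ a, a ∈ S₁ ∧ a ∈ S₂ ∧ zd a 0 ≤ K ∧ d < zd a 0 := by
  obtain ⟨l, hl⟩ : ∃ l : ℕ, 32 * ((d : ℝ) + 3) ≤ l * α ^ 2 :=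
    ⟨_, (div_le_iff₀ (by positivity)).1 (Nat.le_ceil _)⟩
  refine ⟨2 * l + 1, fun κ h0 h2 S₁ S₂ ν₁ ν₂ h => ?_⟩
  obtain ⟨a, a1, a2⟩ := rnd (ζ := ν₁ + ν₂) ((norm_add_le _ _).trans (by rw [h.n₁, h.n₂]; norm_num)) l
  have e1 := sq_of_norm h.n₁
  have e2 := sq_of_norm h.n₂
  have e3 := Complex.sq_norm (ν₁ + ν₂)
  have e4 : α ^ 2 ≤ ‖ν₁ + ν₂‖ ^ 2 := pow_le_pow_left₀ hα.le h.add 2
  have b1 := (abs_le.1 (a2 ν₁ h.n₁)).1
  have b2 := (abs_le.1 (a2 ν₂ h.n₂)).1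
  simp only [Complex.normSq_apply, Complex.add_re, Complex.add_im] at e3 b1 b2
  have l0 : (0 : ℝ) ≤ l := Nat.cast_nonneg l
  have d0 : (0 : ℝ) ≤ d := Nat.cast_nonneg d
  have c1 := mul_le_mul_of_nonneg_left (show α ^ 2 / 2 ≤
    (ν₁.re + ν₂.re) * ν₁.re + (ν₁.im + ν₂.im) * ν₁.im by linarith) l0
  have c2 := mul_le_mul_of_nonneg_left (show α ^ 2 / 2 ≤
    (ν₁.re + ν₂.re) * ν₂.re + (ν₁.im + ν₂.im) * ν₂.im by linarith) l0
  have c3 := mul_le_mul_of_nonneg_left h2 l0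
  have c4 : κ ≤ 1 / 32 := by nlinarith [h.le_two]
  have c5 := (abs_le.1 ((Ge2.bx_of (le_refl (zd a 0))).ht_le h.n₁.le)).2
  push_cast at c5
  refine ⟨a, ?_, ?_, a1, by exact_mod_cast (show (d : ℝ) < zd a 0 by linarith)⟩
  · have := Ge2.inn h.e₁ h.n₁ h0 (by linarith) h.w₁.1 a1 (v := 0) (ρ := 0) (by simp [zd])
      (by push_cast; linarith)
    rwa [add_zero] at this
  · have := Ge2.inn h.e₂ h.n₂ h0 (by linarith) h.w₂.1 a1 (v := 0) (ρ := 0) (by simp [zd])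
      (by push_cast; linarith)
    rwa [add_zero] at this

/-- A tip is not one wall. -/
theorem no_wall {α : ℝ} (hα : 0 < α) (d : ℕ) : ∃ K : ℕ, ∀ κ κ' : ℝ, 0 ≤ κ' → κ' ≤ κ →
    κ ≤ α ^ 2 / 128 → ∀ un S₁ S₂ ν₁ ν₂, TipS S₁ S₂ ν₁ ν₂ α κ → ∀ ν : ℂ, ‖ν‖ = 1 →
    ∃ a a', a ∈ Two un S₁ S₂ ∧ a' ∉ Two un S₁ S₂ ∧ zd a 0 ≤ K ∧ zd a' 0 ≤ K ∧ d < zd a 0 ∧
      κ' * len (a' - a) ≤ ht ν (a' - a) := by
  obtain ⟨K₁, h1⟩ := inner hα d
  obtain ⟨K₂, h2⟩ := no_epi hα (K₁ + d)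
  refine ⟨K₁ + K₂, fun κ κ' k0 k1 k2 un S₁ S₂ ν₁ ν₂ h ν hν => ?_⟩
  cases un
  · obtain ⟨a, a1, a2, a3, a4⟩ := h1 κ (k0.trans k1) k2 _ _ _ _ h
    obtain ⟨a', b1, b2, -, b3⟩ := h2 κ κ' k0 k1 k2 _ _ _ _ (RgZ.tip_compl h) (-ν)
      (by rwa [norm_neg]) a (by omega)
    refine ⟨a, a', ⟨a1, a2⟩, fun o => b1.elim (fun k => k o.1) fun k => k o.2, by omega, by omega,
      a4, ?_⟩
    rw [← neg_sub a a']
    simpa only [len, ht, Prod.fst_neg, Prod.snd_neg, Int.cast_neg, neg_sq, Complex.neg_re,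
      Complex.neg_im, mul_neg, neg_mul] using b3
  · obtain ⟨a', a1, a2, a3, -⟩ := h1 κ (k0.trans k1) k2 _ _ _ _ (RgZ.tip_compl h)
    obtain ⟨a, b1, b2, b3, b4⟩ := h2 κ κ' k0 k1 k2 _ _ _ _ h ν hν a' (by omega)
    exact ⟨a, a', b1, fun o => Or.elim o a1 a2, by omega, by omega, by omega, b4⟩

end VBc

open VBc

theorem digBcU {α : ℝ} (hα : 0 < α) (t : ℕ) : ∃ Q : ℕ, 1 ≤ Q ∧ ∀ κ, κ ≤ α ^ 2 / 128 →
    ∀ α' κ' : ℝ, 0 < κ' → κ' ≤ κ → ∀ (Λ P : Finset (ℤ × ℤ)) (b : ℤ × ℤ → Bool) (r : ℕ)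
    (c : ℤ × ℤ → ℤ × ℤ), RawU Λ P α κ r → (∀ p, 2 * zd (c p) p ≤ t) → BcZ Λ b α' κ' r → Q ≤ r →
    (∃ b₁ : ℤ × ℤ → Bool, (∀ v, v ∉ Λ → b₁ v = b v) ∧
      BcZ (dig Λ (P.image c) t) b₁ α' κ' (r / Q) ∧ ∀ p ∈ P.image c, ∀ v, zd v p ≤ r / Q →
        v ∉ dig Λ (P.image c) t → b₁ v = b₁ p) ∧
      ∀ p ∈ P.image c, ∀ (x : ℤ × ℤ) (e : Fin 4) (ρ : ℕ), Q ≤ ρ → ρ ≤ r / Q →
        MkZ (dig Λ (P.image c) t) κ' ρ x e → ρ / Q < zd x p := by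
  classical
  obtain ⟨K, hK⟩ := no_wall hα (2 * t)
  refine ⟨4 * (K + 2 * t + 1), by omega, fun κ k2 α' κ' hκ' hκκ Λ P b r c hR hc hb hr => ?_⟩
  have hq : ∀ ρ, 4 * (ρ / (4 * (K + 2 * t + 1))) ≤ ρ := fun ρ =>
    (Nat.mul_le_mul_right _ (by omega)).trans (Nat.mul_div_le ρ _)
  have r4 := hq r
  have uniq : ∀ p ∈ P, ∀ p' ∈ P, ∀ v, zd v p + zd v p' ≤ r → p = p' := fun p hp p' hp' v h => by
    by_contra e
    have := hR.sep p hp p' hp' e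
    have := zd_tri p v p'
    rw [zd_comm p v] at this
    omega
  have md : ∀ v, v ∈ dig Λ (P.image c) t ↔ v ∈ Λ ∧ ∀ p ∈ P, t < zd v (c p) := fun v => by
    rw [mem_dig, Finset.forall_mem_image]
  have tr : ∀ v p, zd v p ≤ zd v (c p) + t ∧ zd v (c p) ≤ zd v p + t := fun v p => by
    have h1 := zd_tri v (c p) p
    have h2 := zd_tri v p (c p)
    have h3 := hc p
    rw [zd_comm p] at h2
    omega
  refine ⟨?_, Finset.forall_mem_image.2 fun p hp x e ρ h1 h2 hm => ?_⟩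
  · have key : ∀ p ∈ P, ∃ s : Bool, ∀ v, zd v p ≤ r → v ∉ Λ → b v = s := fun p hp => by
      obtain ⟨un, S₁, S₂, ν₁, ν₂, ⟨hT, -⟩, hΛ⟩ := hR.tip p hp
      obtain ⟨f, -, f1, -, f2, -⟩ := hK κ κ' hκ'.le hκκ k2 un S₁ S₂ ν₁ ν₂ hT 1 norm_one
      rcases hb p ⟨p + f, (hΛ f (by omega)).2 f1, by rw [zd_add]; omega⟩ with
        h | h | ⟨S, S', ν, τ, hν, -, -, -, hS, -, h⟩
      · exact ⟨_, h⟩
      · exact ⟨_, h⟩
      · obtain ⟨a, a', a1, a2, a3, a4, -, a5⟩ := hK κ κ' hκ'.le hκκ k2 un S₁ S₂ ν₁ ν₂ hT ν hν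
        have a6 := hS a ((h a (by omega)).1.1 ((hΛ a (by omega)).2 a1)) _ a5
        rw [add_sub_cancel] at a6
        exact absurd ((hΛ a' (by omega)).1 ((h a' (by omega)).1.2 a6)) a2
    choose! s hs using key
    obtain ⟨b₁, e1, e2⟩ : ∃ b₁ : ℤ × ℤ → Bool, (∀ v, v ∉ Λ → b₁ v = b v) ∧
        ∀ p ∈ P, ∀ v, zd v p + 2 * t ≤ r → v ∉ dig Λ (P.image c) t → b₁ v = s p := by
      refine ⟨fun v => if v ∈ Λ then decide (∃ p ∈ P, zd v (c p) ≤ t ∧ s p = true) else b v,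
        fun v hv => if_neg hv, fun p hp v h1 h2 => ?_⟩
      by_cases hv : v ∈ Λ
      · rw [md] at h2
        push Not at h2
        obtain ⟨p', hp', h3⟩ := h2 hv
        obtain rfl := uniq p hp p' hp' v (by have := tr v p'; omega)
        simp only [if_pos hv]
        rw [Bool.eq_iff_iff, decide_eq_true_iff]
        refine ⟨fun ⟨p', hp', h4, h5⟩ => ?_, fun h => ⟨p, hp, h3, h⟩⟩
        rwa [uniq p hp p' hp' v (by have := tr v p'; omega)]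
      · simp only [if_neg hv]
        exact hs p hp v (by omega) hv
    refine ⟨b₁, e1, fun z ⟨v, hv, hz⟩ => ?_, Finset.forall_mem_image.2 fun p hp v h1 h2 => ?_⟩
    · by_cases h : ∃ p ∈ P, zd z p ≤ r / (4 * (K + 2 * t + 1)) + 2 * t
      · obtain ⟨p, hp, h⟩ := h
        have h1 : ∀ v, zd v z ≤ r / (4 * (K + 2 * t + 1)) → v ∉ dig Λ (P.image c) t →
            b₁ v = s p := fun v h1 => e2 p hp v (by have := zd_tri v z p; omega)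
        cases h2 : s p
        · exact Or.inr (Or.inl (h2 ▸ h1))
        · exact Or.inl (h2 ▸ h1)
      · push Not at h
        have h1 : ∀ v, zd v z ≤ r / (4 * (K + 2 * t + 1)) → (v ∈ dig Λ (P.image c) t ↔ v ∈ Λ) :=
          fun v h1 => ⟨fun h => (mem_dig.1 h).1, fun h2 => (md v).2 ⟨h2, fun p hp => by
            have := h p hp
            have := tr v p
            have := zd_tri z v p
            rw [zd_comm z v] at this
            omega⟩⟩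
        rcases hb z ⟨v, (mem_dig.1 hv).1, by omega⟩ with
          h2 | h2 | ⟨S, S', ν, τ, a1, a2, a3, a4, a5, a6, h2⟩
        · refine Or.inl fun v h3 h4 => ?_
          rw [h1 v h3] at h4
          rw [e1 v h4, h2 v (by omega) h4]
        · refine Or.inr (Or.inl fun v h3 h4 => ?_)
          rw [h1 v h3] at h4
          rw [e1 v h4, h2 v (by omega) h4]
        · refine Or.inr (Or.inr ⟨S, S', ν, τ, a1, a2, a3, a4, a5, a6, fun v h3 => ?_⟩)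
          rw [h1 _ (by rwa [zd_add])]
          refine ⟨(h2 v (by omega)).1, fun h4 => ?_⟩
          rw [e1 _ h4]
          exact (h2 v (by omega)).2 h4
    · rw [e2 p hp v (by have := tr v p; omega) h2, e2 p hp (c p) (by have := hc p; omega)
        fun o => by simpa [zd] using ((md _).1 o).2 p hp]
  · by_contra h3
    have r5 := hq ρ
    obtain ⟨un, S₁, S₂, ν₁, ν₂, ⟨hT, -⟩, hΛ⟩ := hR.tip p hp
    obtain ⟨S, ν, hν, hS, -, h⟩ := hm.cone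
    obtain ⟨a, a', a1, a2, a3, a4, a5, a6⟩ := hK κ κ' hκ'.le hκκ k2 un S₁ S₂ ν₁ ν₂ hT ν hν
    have b1 := zd_add p a
    have b2 := zd_add p a'
    have b3 : p + a ∈ dig Λ (P.image c) t := (md _).2 ⟨(hΛ a (by omega)).2 a1, fun p' hp' => by
      by_contra h4
      have := tr (p + a) p'
      obtain rfl := uniq p hp p' hp' (p + a) (by omega)
      omega⟩
    have b4 := zd_tri (p + a) p x
    have b5 := zd_tri (p + a') p x
    have b6 := tr x p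
    rw [zd_comm p x] at b4 b5
    have b7 := hS _ ((h (p + a - x) (by rw [Ge2.zd_sub]; omega)).1
      (by rwa [add_sub_cancel])) _ a6
    rw [show p + a - x + (a' - a) = p + a' - x by abel] at b7
    have b8 := (h _ (by rw [Ge2.zd_sub]; omega)).2 b7
    rw [add_sub_cancel] at b8
    exact a2 ((hΛ a' (by omega)).1 (mem_dig.1 b8).1)

end Vale.Agent.P144Z
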