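import Vale.Agent.P144D.I.V.Deep
import Vale.Agent.P144U.Defs

/-!
Deep points of the sets dug at tips of both kinds.
-/

namespace Vale.Agent.P144Z

open Finset GeoA IConv IDeep

namespace VDeep

variable {Λ P : Finset (ℤ × ℤ)} {α κ : ℝ} {r : ℕ}

theorem two_imp {un : Bool} {S₁ S₂ : Set (ℤ × ℤ)} {u v : ℤ × ℤ} (h : u ∈ Two un S₁ S₂)
    (h1 : u ∈ S₁ → v ∈ S₁) (h2 : u ∈ S₂ → v ∈ S₂) : v ∈ Two un S₁ S₂ := by
  cases un
  · exact And.imp h1 h2 h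
  · exact Or.imp h1 h2 h

theorem exists_dirU {α' : ℝ} (h : RawU Λ P α' κ r) (hα : 0 < α) (a1 : α ≤ α') (a2 : α ≤ 1)
    (h0 : 0 ≤ κ) (h1 : 100 * κ ≤ α) (z : ℤ × ℤ) : ∃ a b, Dir Λ α r z a b := by
  have h2 : 100 * κ ≤ 1 := h1.trans a2
  have sh : ∀ (p u x : ℤ × ℤ) (w : ℤ × ℤ), zd (x - p) (u - p + w) = zd x (u + w) := by
    intro p u x w
    simp only [zd, Prod.fst_add, Prod.snd_add, Prod.fst_sub, Prod.snd_sub]
    omega
  rcases h.chart z with ⟨S₁, S₂, ν₁, ν₂, n1, n2, n3, e1, e2, hS⟩ |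
    ⟨p, -, ρ, hρ, un, S₁, S₂, ν₁, ν₂, ⟨k, -⟩, hS⟩
  · obtain ⟨a, b, ha, hb, m1, m2⟩ := exists_mu n1 n2 hα (a2.trans n3)
    refine ⟨a, b, ha, hb, fun u x t D hu hur hxr hx hD => ?_⟩
    have k1 := (hS (u - z) (by rwa [zd_sub_zero])).1 (by simpa using hu)
    rw [← sh z] at hx
    have := (hS (x - z) (by rwa [zd_sub_zero])).2
      ⟨up e1 n1 h0 h1 h2 ha hb m1 k1.1 hx hD, up e2 n2 h0 h1 h2 ha hb m2 k1.2 hx hD⟩
    simpa using this
  · obtain ⟨a, b, ha, hb, m1, m2⟩ := exists_mu k.n₁ k.n₂ hα (a1.trans k.add)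
    refine ⟨a, b, ha, hb, fun u x t D hu hur hxr hx hD => ?_⟩
    have t1 := zd_tri u z p
    have t2 := zd_tri x z p
    have k1 := (hS (u - p) (by rw [zd_sub_zero]; omega)).1 (by simpa using hu)
    rw [← sh p] at hx
    have := (hS (x - p) (by rw [zd_sub_zero]; omega)).2
      (two_imp k1 (fun o => up k.e₁ k.n₁ h0 h1 h2 ha hb m1 o hx hD)
        fun o => up k.e₂ k.n₂ h0 h1 h2 ha hb m2 o hx hD)
    simpa using this

end VDeep

open VDeep in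
theorem deepU {α : ℝ} (hα : 0 < α) (t N : ℕ) : ∃ C : ℕ, ∀ κ, 0 < κ → 100 * κ ≤ min α 1 →
    ∀ (Λ P P' : Finset (ℤ × ℤ)) (r r' T : ℕ), RawU Λ P α κ r → (∀ v ∈ Λ, zd v 0 ≤ T) →
    (∀ p ∈ P', ∃ v, v ∉ Λ ∧ zd v p ≤ t) →
    (∀ (M : ℕ) [NeZero M], 4 * (T + r) ≤ M → Rgh ((dig Λ P' t).image (prj M)) N r') → r' ≤ r →
    DeepOK (dig Λ P' t) C r' := by
  have α0 : 0 < min α 1 := by positivity
  obtain ⟨C, hC, hCt⟩ : ∃ C : ℕ, 300 ≤ C * min α 1 ∧ t ≤ C := ⟨⌈300 / min α 1⌉₊ + t, by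
    have := (div_le_iff₀ α0).1 (Nat.le_ceil (300 / min α 1))
    have := mul_nonneg (Nat.cast_nonneg (α := ℝ) t) α0.le
    push_cast
    linarith, Nat.le_add_left _ _⟩
  refine ⟨(C + 50) * (t + C + 1) + (t + 2 * C + 2 * N + 2),
    fun κ h0 h1 Λ P P' r r' T h hΛ hP hR hr => ?_⟩
  have hs : ∀ s, 1 ≤ s → ((C + 50) * (t + C + 1) + (t + 2 * C + 2 * N + 2)) * s ≤ r' →
      (C + 50) * (s + (t + C)) ≤ ((C + 50) * (t + C + 1) + (t + 2 * C + 2 * N + 2)) * s ∧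
        N * (s + 1) ≤ r' ∧ s ≤ r' ∧ ∀ p ∈ P', ∃ v, v ∉ Λ ∧ zd v p ≤ C := by
    intro s k1 k2
    have a1 : (C + 50) * (s + (t + C)) ≤ (C + 50) * (t + C + 1) * s := by
      rw [mul_assoc]
      exact Nat.mul_le_mul_left _ (by nlinarith)
    have a2 : N * (s + 1) + s + C ≤ (t + 2 * C + 2 * N + 2) * s := by nlinarith
    rw [add_mul ((C + 50) * (t + C + 1))] at k2 ⊢
    exact ⟨by omega, by omega, by omega,
      fun p hp => (hP p hp).imp fun v hv => ⟨hv.1, hv.2.trans hCt⟩⟩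
  refine ⟨fun d hd k u hu => ?_, fun d s hd k1 k p p' hp hp' hpp => ?_,
    fun s k1 k f f' hf hf' hff => ?_⟩
  · obtain ⟨a1, -, -, a2⟩ := hs d hd k
    obtain ⟨a, b, hD⟩ := exists_dirU h α0 (min_le_left _ _) (min_le_right _ _) h0.le h1 u
    obtain ⟨p, p1, p2⟩ := cork hD hC (d := d + (t + C)) (by omega) (by omega) (mem_dig.1 hu).1
    exact ⟨p, p1.trans a1, deep_dig a2 p2⟩
  · obtain ⟨a1, -, -, a2⟩ := hs s (by omega) k
    obtain ⟨a, b, hD⟩ := exists_dirU h α0 (min_le_left _ _) (min_le_right _ _) h0.le h1 p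
    have a3 : (C + 50) * s ≤ (C + 50) * (s + (t + C)) := Nat.mul_le_mul_left _ (by omega)
    exact rch_mono (fun _ => deep_dig a2) (conn hD α0 hC (d := d + (t + C)) (e := 2 * d)
      (by omega) (by omega) (by omega) (fun v hv => (mem_dig.1 (hp v hv)).1)
      (fun v hv => (mem_dig.1 (hp' v hv)).1) hpp)
  · obtain ⟨-, a1, a2, -⟩ := hs s k1 k
    have : NeZero (4 * (T + r) + 2) := ⟨by omega⟩
    exact out (fun v hv => hΛ v (mem_dig.1 hv).1)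
      ((hR (4 * (T + r) + 2) (by omega)).conn _ s a1) (by omega) hf hf' hff

end Vale.Agent.P144Z
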