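import Vale.Agent.P144D.I.U.Tilt

/-!
Sign changes, constants independent of the angles: the main estimates with corrections of any range.
-/

namespace Vale.Agent.P144Z

open Finset Matrix

/-- `MainJV` for at most `m` energies and corrections of range `K₁`. -/
def MainJK (Q : Cls) (q : Par) (Zσ Zε : ℝ) (L : ℕ) (c' η₁ : ℝ) (m K₁ : ℕ) (δ : ℝ) : Prop :=
  ∀ K : ℕ, ∃ θ > 0, ∀ (N Λ : ℕ) (Γ : ℝ), 1 ≤ Γ → ∃ C : ℝ, ∀ ε > 0, ∃ J₀ : ℕ, ∀ J ≥ J₀,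
    ∀ (M : ℕ) [NeZero M] (P : Gauge M) (v : Cor M) (k : ℕ) (s : Fin k → Tor M × Fin 4)
    (u : Fin k → ℕ → Tor M × Fin 4 → ℝ) (ν : Fin k → ℕ → ℝ) (o : ℝ)
    (O : Fin k → (Tor M × Fin 2 → Bool) → ℝ), v.Ok → v.Off P → v.Le K₁ δ → k ≤ N →
    MkDat P s u ν L J c' η₁ → LocO s K O → |o| ≤ 1 → (∀ i n, |O i n - o| ≤ θ) →
    ∃ z : Fin k → ℝ, (∀ i, |z i - o| ≤ 1 / 2) ∧
      ∀ (B : Gauge M) (ι : Type) [Fintype ι] [DecidableEq ι] (y : ι → Tor M) (d : ι → Fin 2)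
      (n : ℕ) (K' : ℝ), Fintype.card ι ≤ m → DomQ Q P B y d n L J N Λ Γ →
      (∀ φ, φ ⬝ᵥ φ ≤ (Γ * sc L J) ^ 2 * ((Dm (P * B) *ᵥ φ) ⬝ᵥ (Dm (P * B) *ᵥ φ))) →
      |Zw par0 (P * B) 1| ≤ K' * |Zw par0 P 1| →
        |mixJV q v P B s O y d -
          (∏ i, z i) * Zσ ^ n * Zε ^ Fintype.card ι * mixJ par0 P B s 1 y d| ≤
          ε / (sc L J : ℝ) ^ Fintype.card ι * (K' * ∏ i, ν i J) ∧
        |mixJ par0 P B s 1 y d| ≤ C / (sc L J : ℝ) ^ Fintype.card ι * (K' * ∏ i, ν i J)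

/-- The mean energy in the bulk hardly depends on a correction of range `K₁`. -/
def EnK (Q : Cls) (q : Par) (L K₁ : ℕ) (δ : ℝ) : Prop :=
  ∀ (N Λ : ℕ) (Γ : ℝ), 1 ≤ Γ → ∀ ε > 0, ∃ J₀ : ℕ, ∀ J ≥ J₀, ∀ (M : ℕ) [NeZero M] (P B : Gauge M)
    (Δ : Cor M) (ι : Type) [Fintype ι] [DecidableEq ι] (y : ι → Tor M) (d : ι → Fin 2) (n : ℕ),
    Fintype.card ι ≤ 1 → DomQ Q P B y d n L J N Λ Γ → Δ.Ok → Δ.Le K₁ δ → Δ.Off P →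
    ∀ k, sc L J * |enC q Δ P (y k) (d k) - enC q 0 P (y k) (d k)| ≤ ε

/-- The main estimates with insertions hold for small corrections of any range. -/
def UnivJK (Q : Cls) (q : Par) (Zσ Zε : ℝ) (L : ℕ) (c' η₁ : ℝ) (m : ℕ) : Prop :=
  ∀ K₁ : ℕ, ∃ δ > (0 : ℝ), MainJK Q q Zσ Zε L c' η₁ m K₁ δ ∧ EnK Q q L K₁ δ

end Vale.Agent.P144Z
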