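import Vale.Agent.P144U.Stmt
import Vale.Agent.P144U.Raw.Main
import Vale.Agent.P144D.I.Pw.Ex
import Vale.Agent.P144D.I.Pw.Lat

/-!
Domains and boundary conditions with a fixed bound on the slopes: examples and discretisation.
-/

namespace Vale.Agent.P144Z

open B6a P144

theorem tameK_of {α : ℝ} (hα : 0 < α) {D : Set ℂ} {b : Option (ℝ → Config)} (hD : TameW α D)
    (hb : SignBC D b) : ∃ α' > (0 : ℝ), ∀ κ > (0 : ℝ), TameK α' κ D ∧ SignK α' κ D b := by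
  have key : ∀ α' ≤ α, ∀ κ > (0 : ℝ), TameK α' κ D := fun α' h κ hκ => ⟨hD.1, hD.2.1, fun z => by
    obtain ⟨r, hr, S₁, S₂, ν₁, ν₂, e1, e2, e3, e4, e5, e6⟩ := hD.2.2 z κ hκ
    exact ⟨r, hr, S₁, S₂, ν₁, ν₂, e1, e2, h.trans e3, e4, e5,
      e6.imp_right fun e => ⟨h.trans e.1, e.2⟩⟩⟩
  rcases hb with rfl | ⟨P, ⟨α', hα', h⟩, rfl⟩
  · exact ⟨α, hα, fun κ hκ => ⟨key α le_rfl κ hκ, Or.inl rfl⟩⟩
  refine ⟨min α α', lt_min hα hα', fun κ hκ => ⟨key _ (min_le_left _ _) κ hκ, Or.inr ⟨P, ?_, rfl⟩⟩⟩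
  obtain ⟨r, hr, h⟩ := h κ hκ
  exact ⟨r, hr, fun z hz => (h z hz).imp_right (Or.imp_right
    fun ⟨S, S', ν, τ, e1, e2, e3, e4, e⟩ => ⟨S, S', ν, τ, e1, e2, (min_le_right _ _).trans e3,
      (min_le_right _ _).trans e4, e⟩)⟩

theorem StdBC.signK {b : Option (ℝ → Config)} (h : StdBC b) (α κ : ℝ) (D : Set ℂ) :
    SignK α κ D b := by
  rcases h with rfl | rfl | rfl
  · exact Or.inl rfl
  · exact Or.inr ⟨_, ⟨1, one_pos, fun _ _ => Or.inl (Set.subset_univ _)⟩, by rw [bcOf_univ]⟩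
  · exact Or.inr ⟨∅, ⟨1, one_pos, fun _ _ => Or.inr (Or.inl fun _ _ h => h)⟩, by rw [bcOf_empty]⟩

theorem IsLip.tameK {K : ℝ} (hK : 0 ≤ K) {D : Set ℂ} (h : IsLip K D) : TameK 1 K D := by
  refine ⟨h.1, h.2.1, fun z => ?_⟩
  have key : ∀ (r : ℝ) (S : Set ℂ) (ν : ℂ), 0 < r → ‖ν‖ = 1 → Cone S ν K →
      (∀ w ∈ Metric.ball z r, w ∈ D ↔ w ∈ S) → CornerK 1 K D z := fun r S ν h1 h2 h3 h4 =>
    ⟨r, h1, S, S, ν, ν, h2, h2, by rw [← two_mul, norm_mul, h2]; simp, h3, h3,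
      Or.inl (Set.ext fun w => and_congr_left fun hw => by rw [Set.inter_self, h4 w hw])⟩
  by_cases hz : z ∈ frontier D
  swap
  · by_cases h1 : z ∈ closure D
    · obtain ⟨ε, ε0, h2⟩ := Metric.mem_nhds_iff.1
        (mem_interior_iff_mem_nhds.1 (not_not.1 fun o => hz ⟨h1, o⟩))
      exact key ε Set.univ 1 ε0 norm_one (fun _ _ _ _ => trivial)
        fun w hw => ⟨fun _ => trivial, fun _ => h2 hw⟩
    · obtain ⟨ε, ε0, h2⟩ := Metric.mem_nhds_iff.1 (isClosed_closure.isOpen_compl.mem_nhds h1)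
      exact key ε ∅ 1 ε0 norm_one (fun _ h => h.elim)
        fun w hw => ⟨fun o => h2 hw (subset_closure o), fun o => o.elim⟩
  obtain ⟨r, hr, u, hu, g, hg, hD⟩ := h.2.2 z hz
  refine key r {w | g (u * w).re < (u * w).im} ⟨u.im, u.re⟩ hr ?_ (fun w hw v hv => ?_) hD
  · rw [← hu, Complex.norm_eq_sqrt_sq_add_sq, Complex.norm_eq_sqrt_sq_add_sq, add_comm]
  · have h1 : |(u * v).re| ≤ ‖v‖ := by simpa [hu] using Complex.abs_re_le_norm (u * v)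
    have h2 := (abs_le.1 (hg ((u * w).re + (u * v).re) (u * w).re)).2
    have h3 := mul_le_mul_of_nonneg_left h1 hK
    have h4 : (u * v).im = v.re * u.im + v.im * u.re := by rw [Complex.mul_im]; ring
    rw [add_sub_cancel_left] at h2
    change g (u * w).re < (u * w).im at hw
    change g (u * (w + v)).re < (u * (w + v)).im
    rw [mul_add, Complex.add_re, Complex.add_im]
    linarith

theorem PWK.bcZ {α κ : ℝ} {D P : Set ℂ} (h : PWK α κ D P) : ∃ ρ > (0 : ℝ), ∀ a > (0 : ℝ),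
    ∀ Λ : Finset (ℤ × ℤ), (∀ x, x ∈ Λ ↔ (⟨a * x.1, a * x.2⟩ : ℂ) ∈ D) → ∀ r : ℕ, a * r ≤ ρ →
      BcZ Λ (bcOf P a) α κ r := by
  obtain ⟨r₀, r0, h⟩ := h
  refine ⟨r₀ / 3, by positivity, fun a ha Λ hΛ r hr z ⟨v₀, hv₀, hz⟩ => ?_⟩
  have h2 : ∀ x, x ∈ Λ ↔ pt a x ∈ D := hΛ
  have h3 : ∀ v, zd v 0 ≤ r → pt a (z + v) ∈ Metric.ball (pt a z) r₀ := fun v hv => by
    have h4 : (zd v 0 : ℝ) ≤ r := by exact_mod_cast hv
    rw [pt_add, mem_ball_iff_norm, add_sub_cancel_left]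
    nlinarith [le_zd ha v]
  have h4 : ∀ v, zd v z ≤ r → pt a v ∈ Metric.ball (pt a z) r₀ := fun v hv => by
    have := h3 (v - z) (by simpa [zd] using hv)
    rwa [add_sub_cancel] at this
  have hb : ∀ v, bcOf P a v = true ↔ pt a v ∈ P := fun v => by
    simp only [bcOf, decide_eq_true_eq]
    rfl
  rcases h (pt a z) ⟨_, (h2 _).1 hv₀, h4 _ hz⟩ with
    h | h | ⟨S, S', ν, τ, e1, e2, e3, e4, c1, c2, e5, e6⟩
  · exact Or.inl fun v hv hn => (hb v).2 (h ⟨h4 v hv, fun h5 => hn ((h2 v).2 h5)⟩)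
  · refine Or.inr (Or.inl fun v hv hn => ?_)
    rw [← Bool.not_eq_true, hb]
    exact h ⟨h4 v hv, fun h5 => hn ((h2 v).2 h5)⟩
  · refine Or.inr (Or.inr ⟨_, _, ν, τ, e1, e2, e3, e4, epi c1 ha z, epi c2 ha z, fun v hv => ?_⟩)
    have h5 := Set.ext_iff.1 e5 (pt a (z + v))
    have h6 := Set.ext_iff.1 e6 (pt a (z + v))
    simp only [Set.mem_inter_iff, Set.mem_sdiff, h3 v hv, and_true] at h5 h6
    refine ⟨(h2 _).trans h5, fun hn => ?_⟩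
    rw [h2] at hn
    rw [hb]
    simpa [hn] using h6

/-- A corner is a wide convex corner or a tip. -/
theorem CornerK.tip {α κ : ℝ} {D : Set ℂ} {z : ℂ} (h : CornerK α κ D z) :
    ∃ r > (0 : ℝ), ∃ (un : Bool) (S₁ S₂ : Set ℂ) (ν₁ ν₂ : ℂ), ‖ν₁‖ = 1 ∧ ‖ν₂‖ = 1 ∧
      Cone S₁ ν₁ κ ∧ Cone S₂ ν₂ κ ∧
      (1 ≤ ‖ν₁ + ν₂‖ ∧ D ∩ Metric.ball z r = S₁ ∩ S₂ ∩ Metric.ball z r ∨
        α ≤ ‖ν₁ + ν₂‖ ∧ α ≤ ‖ν₁ - ν₂‖ ∧ (un = false → ‖ν₁ + ν₂‖ ≤ 1) ∧ z ∈ frontier S₁ ∧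
          z ∈ frontier S₂ ∧ D ∩ Metric.ball z r = RawA.TwoC un S₁ S₂ ∩ Metric.ball z r) := by
  obtain ⟨r, r0, S₁, S₂, ν₁, ν₂, n₁, n₂, hα, c₁, c₂, e | ⟨b1, b2, b3, e⟩⟩ := h
  swap
  · exact ⟨r, r0, true, S₁, S₂, ν₁, ν₂, n₁, n₂, c₁, c₂,
      Or.inr ⟨hα, b1, fun o => by simp at o, b2, b3, e⟩⟩
  have k : ∀ {S : Set ℂ} {ν : ℂ} {ε : ℝ}, 0 < ε → ‖ν‖ = 1 → Cone S ν κ →
      (∀ w ∈ Metric.ball z ε, w ∈ S₁ ∩ S₂ ↔ w ∈ S) → _ := fun {S ν ε} ε0 n c o =>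
    (⟨min r ε, lt_min r0 ε0, true, S, S, ν, ν, n, n, c, c, Or.inl ⟨by
      rw [← two_mul, norm_mul, n]; simp, RawA.shrink e o⟩⟩ :
    ∃ r > (0 : ℝ), ∃ (un : Bool) (S₁ S₂ : Set ℂ) (ν₁ ν₂ : ℂ), ‖ν₁‖ = 1 ∧ ‖ν₂‖ = 1 ∧
      Cone S₁ ν₁ κ ∧ Cone S₂ ν₂ κ ∧
      (1 ≤ ‖ν₁ + ν₂‖ ∧ D ∩ Metric.ball z r = S₁ ∩ S₂ ∩ Metric.ball z r ∨
        α ≤ ‖ν₁ + ν₂‖ ∧ α ≤ ‖ν₁ - ν₂‖ ∧ (un = false → ‖ν₁ + ν₂‖ ≤ 1) ∧ z ∈ frontier S₁ ∧
          z ∈ frontier S₂ ∧ D ∩ Metric.ball z r = RawA.TwoC un S₁ S₂ ∩ Metric.ball z r))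
  by_cases f₁ : z ∈ frontier S₁
  swap
  · obtain ⟨ε, ε0, o | o⟩ := RawA.one (S' := S₂) f₁
    exacts [k ε0 n₂ c₂ o, k ε0 n₁ c₁ o]
  by_cases f₂ : z ∈ frontier S₂
  swap
  · obtain ⟨ε, ε0, o | o⟩ := RawA.one (S' := S₁) f₂
    exacts [k ε0 n₁ c₁ (Set.inter_comm S₁ S₂ ▸ o), k ε0 n₂ c₂ (Set.inter_comm S₁ S₂ ▸ o)]
  rcases le_total 1 ‖ν₁ + ν₂‖ with h1 | h1
  · exact ⟨r, r0, true, S₁, S₂, ν₁, ν₂, n₁, n₂, c₁, c₂, Or.inl ⟨h1, e⟩⟩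
  refine ⟨r, r0, false, S₁, S₂, ν₁, ν₂, n₁, n₂, c₁, c₂, Or.inr ⟨hα, ?_, fun _ => h1, f₁, f₂, e⟩⟩
  have h2 := norm_add_le (ν₁ + ν₂) (ν₁ - ν₂)
  rw [add_add_sub_cancel, ← two_mul, norm_mul, n₁, Complex.norm_ofNat] at h2
  linarith

open Ge4 in
/-- The discretisation of the domains. -/
theorem TameK.raw {α κ κ₀ : ℝ} {D : Set ℂ} (h : TameK α κ D) (k1 : κ ≤ 1 / 10) (k2 : κ ≤ κ₀) :
    ∃ T > (0 : ℝ), ∃ ρ > (0 : ℝ), ∀ a > (0 : ℝ),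
      (∀ x, x ∈ disc D a ↔ (⟨a * x.1, a * x.2⟩ : ℂ) ∈ D) ∧ (∀ x ∈ disc D a, a * zd x 0 ≤ T) ∧
        ∀ r : ℕ, 1 ≤ r → a * r ≤ ρ → ∃ P, RawU (disc D a) P α κ₀ r := by
  classical
  obtain ⟨-, hb, h⟩ := h
  obtain ⟨T, T0, hT⟩ := hb.exists_pos_norm_le
  choose R R0 un S₁ S₂ ν₁ ν₂ n₁ n₂ c₁ c₂ hD using fun z => (h z).tip
  obtain ⟨F, ρ, ρ0, ρ1, ρ2, ρ3, hF⟩ := cover (T + 1) R R0
  refine ⟨T, T0, ρ, ρ0, fun a ha => ⟨disc_iff hT ha,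
    fun x hx => (zd_le ha x).trans (hT _ ((disc_iff hT ha x).1 hx)), fun r r1 hr => ?_⟩⟩
  have a1 : a ≤ a * r := le_mul_of_one_le_right ha.le (by exact_mod_cast r1)
  set G := F.filter fun z => ¬ (1 ≤ ‖ν₁ z + ν₂ z‖ ∧
    D ∩ Metric.ball z (R z) = S₁ z ∩ S₂ z ∩ Metric.ball z (R z)) with hG
  have ht : ∀ z ∈ G, ∀ s : ℕ, 2 * a + 2 * (a * s) < R z → TipU (disc D a) α κ₀ s (fl a z) :=
    fun z hz s hs => RawA.tip hT ha k1 k2 (n₁ z) (n₂ z) (c₁ z) (c₂ z)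
      ((hD z).resolve_left (Finset.mem_filter.1 hz).2) hs
  refine ⟨G.image (fl a), ?_, ?_, fun y => ?_⟩
  · intro p hp p' hp' e
    obtain ⟨z, hz, rfl⟩ := Finset.mem_image.1 hp
    obtain ⟨z', hz', rfl⟩ := Finset.mem_image.1 hp'
    have h1 := ρ3 z (Finset.mem_filter.1 hz).1 z' (Finset.mem_filter.1 hz').1 fun e' => e (e' ▸ rfl)
    have h2 := le_zd ha (fl a z - fl a z')
    rw [← zd_eq, pt_sub] at h2
    have h3 : ‖z - z'‖ ≤ ‖pt a (fl a z) - z‖ + ‖pt a (fl a z) - pt a (fl a z')‖ +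
        ‖pt a (fl a z') - z'‖ := by
      rw [norm_sub_rev _ z]
      exact (norm_sub_le_norm_sub_add_norm_sub z (pt a (fl a z')) z').trans
        (add_le_add_left (norm_sub_le_norm_sub_add_norm_sub _ _ _) _)
    have h4 : a * r < a * zd (fl a z) (fl a z') := by
      linarith [norm_fl ha z, norm_fl ha z']
    exact_mod_cast lt_of_mul_lt_mul_left h4 ha.le
  · intro p hp
    obtain ⟨z, hz, rfl⟩ := Finset.mem_image.1 hp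
    exact ht z hz r (by linarith [ρ2 z (Finset.mem_filter.1 hz).1])
  · rcases le_or_gt ‖pt a y‖ (T + 1) with hy | hy
    · obtain ⟨z, hz, h1⟩ := hF _ hy
      have h2 := ρ2 z hz
      by_cases e : 1 ≤ ‖ν₁ z + ν₂ z‖ ∧ D ∩ Metric.ball z (R z) = S₁ z ∩ S₂ z ∩ Metric.ball z (R z)
      · exact Or.inl ⟨_, _, ν₁ z, ν₂ z, n₁ z, n₂ z, e.1, epi (Cone.mono (c₁ z) k2) ha y,
          epi (Cone.mono (c₂ z) k2) ha y,
          fun v hv => read hT ha e.2 (by linarith [norm_add_le_zd ha y v z hv])⟩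
      · have hz' : z ∈ G := Finset.mem_filter.2 ⟨hz, e⟩
        refine Or.inr ⟨fl a z, Finset.mem_image_of_mem _ hz', _, le_rfl, ht z hz' _ ?_⟩
        have h3 := zd_le ha (y - fl a z)
        rw [← zd_eq, pt_sub] at h3
        have h4 := norm_sub_le_norm_sub_add_norm_sub (pt a y) z (pt a (fl a z))
        rw [norm_sub_rev z] at h4
        push_cast
        linarith [norm_fl ha z, mul_add a (zd y (fl a z) : ℝ) r]
    · refine Or.inl ⟨∅, ∅, 1, 1, norm_one, norm_one, by norm_num, fun _ h => h.elim,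
        fun _ h => h.elim, fun v hv => ⟨fun h1 => ?_, fun h1 => h1.1.elim⟩⟩
      have h2 := hT _ ((disc_iff hT ha _).1 h1)
      have h3 := norm_add_le_zd ha (y + v) (-v) 0 (s := r) (by
        rw [zd_eq] at hv ⊢
        simpa [zd] using hv)
      rw [add_neg_cancel_right, sub_zero, sub_zero] at h3
      exfalso
      linarith

end Vale.Agent.P144Z
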