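import Vale.Agent.P144D.I.U.Lat
import Vale.Agent.P144D.I.U.Lip
import Vale.Agent.P144E.Lat.Dom

/-!
From finite sets of sites to domains of the plane, for any class of sets.
-/

namespace Vale.Agent.P144Z

open Filter Topology Vale.Agent.P144 U2D

theorem diffK {J lam β κ α : ℝ} {Raw : Finset Site → ℕ → Prop} {q : Par} {Zσ Zε : ℝ}
    (hL : ∀ m, LatOKK Raw q Zσ Zε κ m) (hκ : 0 < κ) (hα : 100 * κ ≤ α) (hJ : 0 < J)
    (hμ : q.μ = β * lam) (hx : q.x = Real.exp (-(2 * β * J))) {D P : Set ℂ} (hD : IsOpen D)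
    (hS : ∃ T > (0 : ℝ), ∃ ρ > (0 : ℝ), ∀ a > (0 : ℝ),
      (∀ x, x ∈ disc D a ↔ (⟨a * x.1, a * x.2⟩ : ℂ) ∈ D) ∧ (∀ x ∈ disc D a, a * zd x 0 ≤ T) ∧
        ∀ r : ℕ, 1 ≤ r → a * r ≤ ρ → Raw (disc D a) r) (hP : PWK α κ D P) :
    Diff D (crit J D (some (bcOf P))) (inDom J lam q.V β D (some (bcOf P))) Zσ Zε := by
  intro p hp
  obtain ⟨T, hT, ρ, hρ, h1⟩ := hS
  obtain ⟨ρ', hρ', hw⟩ := hP.bcZ
  obtain ⟨s, hs, hsρ, h2⟩ := spins hD hp (lt_min hρ hρ')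
  rw [Metric.tendsto_nhds]
  intro ε hε
  set K := ((s / 2) ^ (-(1 / 8) : ℝ)) ^ p.n * (s / 2)⁻¹ ^ p.m with hK
  have hK0 : 0 < K := by positivity
  obtain ⟨r₀, hr⟩ := hL p.m J lam β hJ hμ hx α κ hκ le_rfl hα p.n ⌈2 * T / s⌉₊ (ε / (2 * K))
    (by positivity)
  have h3 : ∀ᶠ a in 𝓝[>] (0 : ℝ), a < s / (2 * (r₀ + 1)) :=
    nhdsWithin_le_nhds (gt_mem_nhds (by positivity))
  filter_upwards [h2, h3, self_mem_nhdsWithin] with a ⟨hrc, hP⟩ ha ha0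
  have ha0' : 0 < a := ha0
  obtain ⟨d1, d2, d3⟩ := h1 a ha0'
  have r1 : (⌊s / a⌋₊ : ℝ) ≤ s / a := Nat.floor_le (by positivity)
  generalize ⌊s / a⌋₊ = r at hrc hP r1
  have hr0 : r₀ + 1 ≤ r := by
    have : (r₀ + 1 : ℝ) ≤ s / (2 * a) := by
      rw [lt_div_iff₀ (by positivity)] at ha
      rw [le_div_iff₀ (by positivity)]
      nlinarith
    exact_mod_cast this.trans hrc
  have hbox : ∀ v ∈ disc D a, zd v 0 ≤ ⌈2 * T / s⌉₊ * r := fun v hv => by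
    have : (zd v 0 : ℝ) ≤ (⌈2 * T / s⌉₊ : ℝ) * r := by
      calc (zd v 0 : ℝ) ≤ T / a := by
            rw [le_div_iff₀' ha0']
            exact d2 v hv
        _ = 2 * T / s * (s / (2 * a)) := by field_simp
        _ ≤ _ := mul_le_mul (Nat.le_ceil _) hrc (by positivity) (by positivity)
    exact_mod_cast this
  have r2 : a * r ≤ min ρ ρ' := ((le_div_iff₀' ha0').1 r1).trans hsρ
  have hsh := d3 r (by omega) (r2.trans (min_le_left _ _))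
  have k1 : |lcor (inDom J lam q.V β D (some (bcOf P)) a) (fun i => fl a (p.x i))
      (fun k => fl a (p.y k)) p.j - Zσ ^ p.n * Zε ^ p.m * lcor (crit J D (some (bcOf P)) a)
        (fun i => fl a (p.x i)) (fun k => fl a (p.y k)) p.j| ≤
        ε / (2 * K) * (r : ℝ) ^ (-((p.n : ℝ) / 8)) / (r : ℝ) ^ p.m :=
    hr r (by omega) (disc D a) (bcOf P a) _ _ p.j hsh
      (hw a ha0' _ d1 r (r2.trans (min_le_right _ _))) hbox (hP _ d1)
  have k2 := U4.scale ha0' hs hrc p.n p.m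
  rw [Real.dist_eq, sub_zero]
  unfold crit inDom at *
  rw [corr_eq, corr_eq, mul_left_comm, ← mul_sub, abs_mul, abs_of_nonneg (by positivity)]
  refine lt_of_le_of_lt (mul_le_mul_of_nonneg_left k1 (by positivity)) ?_
  rw [← hK, neg_div] at k2
  calc _ = ε / (2 * K) * ((a ^ (-(1 / 8) : ℝ)) ^ p.n * a⁻¹ ^ p.m / r ^ p.m *
        (r : ℝ) ^ (-((p.n : ℝ) / 8))) := by ring
    _ ≤ ε / (2 * K) * K := mul_le_mul_of_nonneg_left k2 (by positivity)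
    _ = ε / 2 := by field_simp
    _ < ε := half_lt_self hε

end Vale.Agent.P144Z
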