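import Vale.Agent.P144D.I.U.Lat
import Vale.Agent.P144D.I.U.Deep
import Vale.Agent.P144D.I.U.Bc
import Vale.Agent.P144U.Cls.Main

/-!
The sets with tips of both kinds can be dug, together with their boundary condition.
-/

namespace Vale.Agent.P144Z

open Finset P144 UL

theorem BcZ.mono {Λ : Finset Site} {b : Config} {α κ : ℝ} {r r' : ℕ} (h : BcZ Λ b α κ r)
    (hr : r' ≤ r) : BcZ Λ b α κ r' := fun z ⟨v, hv, hz⟩ =>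
  (h z ⟨v, hv, hz.trans hr⟩).imp (fun k u hu => k u (hu.trans hr))
    (Or.imp (fun k u hu => k u (hu.trans hr)) fun ⟨S, S', ν, τ, a1, a2, a3, a4, a5, a6, k⟩ =>
      ⟨S, S', ν, τ, a1, a2, a3, a4, a5, a6, fun u hu => k u (hu.trans hr)⟩)

theorem geoK (hD : DigU) (hC : ClsU) {ε : ℝ} (hε : 0 < ε) : ∃ L₀ : ℕ, ∀ L ≥ L₀, ∀ α > (0 : ℝ),
    ∃ κ₀ > (0 : ℝ), ∃ N k₀ : ℕ, ∀ k ≥ k₀, ∀ κ, 0 < κ → κ ≤ κ₀ →
      GeoK (fun Λ r => ∃ P, RawU Λ P α κ r) (QU L ε k N) L κ := by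
  obtain ⟨N, hD⟩ := hD
  obtain ⟨K, hK, hC⟩ := hC N
  obtain ⟨K', hD⟩ := hD K hK
  obtain ⟨Q, hQ, hC⟩ := hC K'
  obtain ⟨L₀, hC⟩ := hC ε hε
  refine ⟨L₀ + 2, fun L hL α hα => ?_⟩
  obtain ⟨κ₁, hκ₁, hC⟩ := hC L (by omega)
  obtain ⟨κ₀, hκ₀, K₀, r₁, hD⟩ := hD α hα
  obtain ⟨N', hC⟩ := hC K₀
  refine ⟨min (min κ₀ κ₁) (min (α ^ 2 / 128) (min α 1 / 100)), by positivity, N', r₁ + 1,
    fun k hk κ hκ hκ' => ?_⟩
  simp only [le_min_iff (c := κ)] at hκ'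
  obtain ⟨⟨k0, k1⟩, k2, k3⟩ := hκ'
  have s1 := sc_ge (L := L) (J := k) (by omega)
  have s2 : sc L k ≤ Q * sc L k := Nat.le_mul_of_pos_left _ hQ
  obtain ⟨t, N₁, Qd, ht, hQd, hD⟩ := hD (Q * sc L k) (by omega)
  obtain ⟨Qb, hQb, hB⟩ := digBcU hα t
  obtain ⟨Cd, hCd⟩ := deepU hα t N₁
  obtain ⟨D, hD'⟩ : ∃ D, D = Qd + Qb + Q + Q * sc L k + 4 * N₁ + 2 * t + 8 := ⟨_, rfl⟩
  refine ⟨t, N₁, D, Cd, 0, ht, by omega, fun α' κ' h0 h0' Λ b r T ⟨P, hP⟩ hb h1 h2 hΛ => ?_⟩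
  obtain ⟨c, c1, c2, c3⟩ := hD κ hκ k0 Λ P r T hP (by omega) hΛ
  obtain ⟨⟨b₁, e1, e2, e3⟩, e4⟩ := hB κ k2 α' κ' h0 h0' Λ P b r c hP c1 hb (by omega)
  have d1 : r / D ≤ r / Qd := Nat.div_le_div_left (by omega) hQd
  have d2 : r / D ≤ r / 2 := Nat.div_le_div_left (by omega) two_pos
  have d3 : ∀ ρ, ρ / D ≤ ρ / Qb := fun ρ => Nat.div_le_div_left (by omega) hQb
  have p1 : ∀ p ∈ P.image c, zd p 0 ≤ T + t ∧ ∃ v, v ∉ Λ ∧ zd v p ≤ t := fun p' hp' => by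
    obtain ⟨p, hp, rfl⟩ := mem_image.1 hp'
    obtain ⟨a1, v, a2, a3⟩ := c2 p hp
    have a4 := c1 p
    have a5 := GeoA.zd_tri (c p) p 0
    have a6 := GeoA.zd_tri v p (c p)
    rw [GeoA.zd_comm p] at a6
    exact ⟨by omega, v, a2, by omega⟩
  have p2 : ∀ (M : ℕ) [NeZero M], 4 * (T + r) ≤ M →
      Rgh ((dig Λ (P.image c) t).image (prj M)) N₁ (r / D) := fun M _ hM =>
    (c3 M hM).elim fun _ hT => hT.rgh.mono d1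
  refine ⟨P.image c, b₁, p1, fun p₁ h₁ p₂ h₂ e => ?_, e1, e2.mono (d3 r),
    fun p hp v hv => e3 p hp v (hv.trans (d3 r)),
    fun p hp x e ρ a1 a2 a3 => (d3 ρ).trans_lt (e4 p hp x e ρ (by omega) (a2.trans (d3 r)) a3),
    hCd κ hκ (by linarith) Λ P _ r _ T hP hΛ (fun p hp => (p1 p hp).2) p2 (by omega),
    fun M _ hM => ⟨p2 M hM, fun B ρ J b1 b2 _ b4 => ?_⟩⟩
  · obtain ⟨p, hp, rfl⟩ := mem_image.1 h₁
    obtain ⟨p', hp', rfl⟩ := mem_image.1 h₂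
    have a1 := hP.sep p hp p' hp' fun k => e (k ▸ rfl)
    have a2 := c1 p
    have a3 := c1 p'
    have a4 := GeoA.zd_tri p (c p) p'
    have a5 := GeoA.zd_tri (c p) (c p') p'
    rw [GeoA.zd_comm p (c p)] at a4
    omega
  · obtain ⟨Tc, hT⟩ := c3 M hM
    have s3 := sc_ge (L := L) (J := J) (by omega)
    have s4 : Q * sc L J ≤ D * sc L J := Nat.mul_le_mul_right _ (by omega)
    have s5 : D ≤ D * sc L J := Nat.le_mul_of_pos_right _ (by omega)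
    exact hC k (by omega) N₁ M ⟨_, false⟩ _ Tc B ρ J (hT.mono k1 (by omega)) b1
      (by omega) (by omega) (by omega)

end Vale.Agent.P144Z
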