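import Vale.Agent.P144D.I.U.Diff
import Vale.Agent.P144D.I.U.Geo
import Vale.Agent.P144U.Free.Lat
import Vale.Agent.P144E.Ge1b.K

/-!
Universality in the plane and in the domains with corners, with constants that do not depend on
the domain.
-/

namespace Vale.Agent.P144Z

open Filter Topology Vale.Agent.P144 U2D

/-- Q1 in the plane and in all the domains of the classes `TameK α (κ α)`, with the same
constants. -/
def DomQ5 : Prop :=
  ∃ κ : ℝ → ℝ, (∀ α > 0, 0 < κ α) ∧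
  ∀ J > 0, ∀ V, IsPotential V → ∀ ε > 0, ∃ lam₀ > 0, ∀ lam : ℝ, |lam| < lam₀ →
    ∃ β > 0, ∃ Zσ Zε : ℝ, |β - Kc / J| < ε ∧ |Zσ - 1| < ε ∧ |Zε - 1| < ε ∧ Zσ ≠ 0 ∧ Zε ≠ 0 ∧
      (∃ μ, IsPlaneState J lam V β μ ∧ IsTorusState J lam V β μ ∧
        ∀ E₀, PlaneFam J 0 (fun _ => 0) (Kc / J) E₀ →
          Diff Set.univ E₀ (famOf μ) Zσ Zε ∧ Identity Set.univ E₀ (famOf μ) Zσ Zε) ∧
      ∀ α > 0, ∀ D b, TameK α (κ α) D → SignK α (κ α) D b →
        Diff D (crit J D b) (inDom J lam V β D b) Zσ Zε ∧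
          Identity D (crit J D b) (inDom J lam V β D b) Zσ Zε

theorem domQ5_of (hG : GenT) (hD : DigU) (hC : ClsU) : DomQ5 := by
  obtain ⟨LX, hX⟩ := boxStmt (bdStmt_of shrStmt) gapStmt
  obtain ⟨LB, hB⟩ := bulkStmt
  obtain ⟨LS, hS⟩ := stateStmt
  obtain ⟨ε₁, hε₁, hG⟩ := hG
  obtain ⟨c', hc', hN⟩ := latK
  obtain ⟨ζ, hζ, LG, hG⟩ := hG ε₁ hε₁ le_rfl c' hc'
  obtain ⟨LN, hN⟩ := hN ζ hζ
  obtain ⟨LF, hF⟩ := geoF hD hC hε₁
  obtain ⟨LK, hK⟩ := geoK hD hC hε₁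
  obtain ⟨L, hL⟩ : ∃ L, LB + LS + LX + LG + LN + LF + LK + 2 ≤ L := ⟨_, le_rfl⟩
  obtain ⟨ηB, hηB, hB⟩ := hB L (by omega)
  obtain ⟨ηS, hηS, hS⟩ := hS L (by omega)
  obtain ⟨κ₁, hκ₁, hN⟩ := hN L (by omega)
  obtain ⟨ηX, hηX, hX⟩ := hX L (by omega)
  obtain ⟨kf, hG0, hG⟩ := hG L (by omega)
  choose! κF hκF hF using hF L (by omega)
  choose! κK hκK hK using hK L (by omega)
  obtain ⟨κ, hκ⟩ : ∃ κ : ℝ → ℝ, ∀ α > 0, 0 < κ α ∧ κ α ≤ κF α ∧ κ α ≤ κK α ∧ κ α ≤ κ₁ ∧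
      κ α ≤ 1 / 10 ∧ κ α ≤ α / 100 :=
    ⟨fun α => min (κF α) (min (κK α) (min κ₁ (min (1 / 10) (α / 100)))), fun α hα => ⟨by
      have := hκF α hα
      have := hκK α hα
      positivity, by simp only [← le_min_iff, le_refl]⟩⟩
  refine ⟨κ, fun α hα => (hκ α hα).1, fun J hJ V hV ε hε => ?_⟩
  obtain ⟨ηM, hηM, hG⟩ := hG (min ε (1 / 2)) (by positivity)
  obtain ⟨η₁, hη₁, hc⟩ : ∃ η₁ > 0, ∀ x : ℝ, |x - tc| ≤ η₁ →
      |-Real.log x / (2 * J) - Kc / J| < ε := by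
    have htc : tc ≠ 0 := by
      rw [U4.tc_eq]
      exact (Real.exp_pos _).ne'
    have h1 : ContinuousAt (fun x : ℝ => -Real.log x / (2 * J)) tc :=
      ((Real.continuousAt_log htc).neg).div_const _
    obtain ⟨δ, hδ, h2⟩ := Metric.continuousAt_iff.1 h1 ε hε
    refine ⟨δ / 2, by positivity, fun x hx => ?_⟩
    have h3 := h2 (x := x) (by rw [Real.dist_eq]; linarith)
    have e : -Real.log tc / (2 * J) = Kc / J := by
      rw [U4.tc_eq, Real.log_exp]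
      field_simp
    rwa [Real.dist_eq, e] at h3
  obtain ⟨R, hR⟩ := U4.exists_R hV
  obtain ⟨δS, hδS, hS1⟩ := hS R
  obtain ⟨δ0, hδ0, hS0⟩ := hS 0
  obtain ⟨δM, hδM, hG⟩ := hG R
  obtain ⟨δX, hδX, hX⟩ := hX R
  set η := min (min ηB ηS) (min (min ηM ηX) η₁) with hη
  obtain ⟨κ₀, hκ₀, hB⟩ := hB η (by positivity) ((min_le_left _ _).trans (min_le_left _ _)) V _ hV
    hR (min (min δS 1) (min δM δX)) (by positivity)
  refine ⟨2 * J * κ₀, by positivity, fun lam hlam => ?_⟩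
  obtain ⟨x, Z, hq⟩ := hB (lam / (2 * J)) (by
    rw [abs_div, abs_of_pos (by positivity : 0 < 2 * J), div_lt_iff₀ (by positivity)]
    linarith)
  set q : Par := ⟨V, R, lam / (2 * J) * (-Real.log x), x, Z⟩ with hqdef
  have hx0 : 0 < x := lt_of_lt_of_le (by norm_num) hq.ok.x_lo
  have hx1 : x < 1 := lt_of_le_of_lt hq.ok.x_hi (by norm_num)
  have hrel : U4.Rel J lam (-Real.log x / (2 * J)) q :=
    { pot := hV
      range := hR
      mu := by
        change lam / (2 * J) * (-Real.log x) = _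
        ring
      x := by
        change x = _
        rw [show -(2 * (-Real.log x / (2 * J)) * J) = Real.log x by field_simp, Real.exp_log hx0]
      st := hS1 q rfl (hq.mono ((min_le_left _ _).trans (min_le_right _ _))
        ((min_le_left _ _).trans (min_le_left _ _))) }
  have hrel0 := U4.rel_zero hJ (hS0 par0 rfl (crit_par0 L ηS δ0 hηS.le hδ0.le))
  obtain ⟨Zσ, Zε, z1, z2, hmain, hU⟩ := hG q rfl
    (hq.mono ((min_le_right _ _).trans ((min_le_left _ _).trans (min_le_left _ _)))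
      ((min_le_right _ _).trans (min_le_left _ _)))
  have hsm : q.Small 1 := le_trans hq.small ((min_le_left _ _).trans (min_le_right _ _))
  have hbox := hX q rfl
    (hq.mono ((min_le_right _ _).trans ((min_le_left _ _).trans (min_le_right _ _)))
      ((min_le_right _ _).trans (min_le_right _ _))) J lam _ hrel
  obtain ⟨μ, hμ, hμ'⟩ := U1.plane_of_torus hJ hV hrel.spin
    fun p hp hn e he => U4.est hJ hrel hrel0 hmain hp hn he
  obtain ⟨z3, z4⟩ := lt_min_iff.1 z1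
  obtain ⟨z5, z6⟩ := lt_min_iff.1 z2
  refine ⟨-Real.log x / (2 * J), div_pos (neg_pos.2 (Real.log_neg hx0 hx1)) (by positivity),
    Zσ, Zε, hc x (hq.x.trans ((min_le_right _ _).trans (min_le_right _ _))), z3, z5, ?_, ?_,
    ⟨μ, hbox μ hμ, hμ, hμ'⟩, fun α hα D b hT hb => ?_⟩
  · rintro rfl
    norm_num at z4
  · rintro rfl
    norm_num at z6
  obtain ⟨k0, k1, k2, k3, k4, k5⟩ := hκ α hα
  rcases hb with rfl | ⟨P, hP, rfl⟩
  · obtain ⟨N, k₀, hF⟩ := hF α hα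
    obtain ⟨T, T0, h1⟩ := hT.raw k4 k1
    have h := diffF (Raw := fun _ Λ r => ∃ P, RawU Λ P α (κF α) r) (fun m => ⟨1, one_pos,
      latF (kStmtW_of gapW) holesW spStmt (by omega) hq.ok hsm (hU m N _ (le_max_left _ k₀)).1
        (hG0 m N _ (le_max_left _ k₀)).1 (hF _ (le_max_right _ _))⟩) hJ hV hrel.mu hrel.x hT.1
      ⟨T, T0, fun _ _ => h1⟩ (Or.inl rfl)
    exact ⟨h, ident h⟩
  · obtain ⟨N, k₀, hK⟩ := hK α hα
    have h := diffK (fun m => (hG0 m N _ (le_max_left _ k₀)).2.elim fun Zσ' h => h.elim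
      fun Zε' h => hN _ k3 _ _ q Zσ Zε Zσ' Zε' m hq.ok hsm (hU m N _ (le_max_left _ k₀)).2 h
        (hK _ (le_max_right _ _) _ k0 k2)) k0 (by linarith) hJ hrel.mu hrel.x hT.1
      (hT.raw k4 le_rfl) hP
    exact ⟨h, ident h⟩

end Vale.Agent.P144Z
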