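import Vale.Agent.P144D.I.U.Half
import Vale.Agent.P144D.I.U.LB
import Vale.Agent.P144E.Ge1a.Main
import Vale.Agent.P144E.Ge1b.Gap

/-!
Universality on the lattice with sign changes, for any class of sets that can be dug.
-/

namespace Vale.Agent.P144Z

open Finset Matrix P144 UL ILat IVL ELat

/-- The sets of the class `Raw` can be dug so that the boundary is of the class `Q`. -/
def GeoK (Raw : Finset Site → ℕ → Prop) (Q : Cls) (L : ℕ) (κ : ℝ) : Prop :=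
  ∃ t N D Cd J₁ : ℕ, 1 ≤ t ∧ 1 ≤ D ∧ ∀ α' κ' : ℝ, 0 < κ' → κ' ≤ κ → ∀ (Λ : Finset Site)
    (b : Config) (r T : ℕ), Raw Λ r → BcZ Λ b α' κ' r → D ≤ r → r ≤ T → (∀ v ∈ Λ, zd v 0 ≤ T) →
    ∃ (P : Finset Site) (b₁ : Config), (∀ p ∈ P, zd p 0 ≤ T + t ∧ ∃ v, v ∉ Λ ∧ zd v p ≤ t) ∧
      (∀ p ∈ P, ∀ p' ∈ P, p ≠ p' → r / D < zd p p') ∧ (∀ v, v ∉ Λ → b₁ v = b v) ∧
      BcZ (dig Λ P t) b₁ α' κ' (r / D) ∧
      (∀ p ∈ P, ∀ v, zd v p ≤ r / D → v ∉ dig Λ P t → b₁ v = b₁ p) ∧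
      (∀ p ∈ P, ∀ (x : Site) (e : Fin 4) (ρ : ℕ), D ≤ ρ → ρ ≤ r / D →
        MkZ (dig Λ P t) κ' ρ x e → ρ / D < zd x p) ∧ DeepOK (dig Λ P t) Cd (r / D) ∧
      ∀ (M : ℕ) [NeZero M], 4 * (T + r) ≤ M → Rgh ((dig Λ P t).image (prj M)) N (r / D) ∧
        ∀ (B : Gauge M) (ρ J : ℕ), Str (pwI ((dig Λ P t).image (prj M))) B ρ → ρ ≤ r / D →
          J₁ ≤ J → D * sc L J ≤ ρ → Q M (pwI ((dig Λ P t).image (prj M)) * B) J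

/-- Universality for the sets of the class `Raw`, with `m` energies. -/
def LatOKK (Raw : Finset Site → ℕ → Prop) (q : Par) (Zσ Zε κ : ℝ) (m : ℕ) : Prop :=
  ∀ J lam β : ℝ, 0 < J → q.μ = β * lam → q.x = Real.exp (-(2 * β * J)) → ∀ α' κ' : ℝ, 0 < κ' →
    κ' ≤ κ → 100 * κ' ≤ α' → ∀ n Λ₀ : ℕ, ∀ ε > 0, ∃ r₀ : ℕ, ∀ r ≥ r₀, ∀ (Λ : Finset Site)
      (b : Config) (x : Fin n → Site) (y : Fin m → Site) (j : Fin m → Fin 2), Raw Λ r →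
      BcZ Λ b α' κ' r → (∀ v ∈ Λ, zd v 0 ≤ Λ₀ * r) → Spins Λ r (Sum.elim x y) →
        |lcor (gibbs J lam q.V β (some b) Λ) x y j -
          Zσ ^ n * Zε ^ m * lcor (gibbs J 0 (fun _ => 0) (Kc / J) (some b) Λ) x y j| ≤
          ε * (r : ℝ) ^ (-((n : ℝ) / 8)) / (r : ℝ) ^ m

theorem latK : ∃ c' : ℝ, 1 ≤ c' ∧ ∀ η₁ > (0 : ℝ), ∃ L₀ : ℕ, ∀ L ≥ L₀, ∃ κ₁ > (0 : ℝ),
    ∀ κ ≤ κ₁, ∀ (Raw : Finset Site → ℕ → Prop) (Q : Cls) (q : Par) (Zσ Zε Zσ' Zε' : ℝ) (m : ℕ),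
      q.Ok → q.Small 1 → UnivJK Q q Zσ Zε L c' η₁ m → UnivJK Q par0 Zσ' Zε' L c' η₁ m →
      GeoK Raw Q L κ → LatOKK Raw q Zσ Zε κ m := by
  obtain ⟨c', hc', Cm, hMk⟩ := mkStmt
  refine ⟨c', hc', fun η₁ hη₁ => ?_⟩
  obtain ⟨ηL, hηL, LL, hLB⟩ := lbU c' hc'
  have η0 : 0 < min η₁ ηL := by positivity
  obtain ⟨Lm, hMk⟩ := hMk _ η0
  refine ⟨2 + Lm + LL, fun L hL => ?_⟩
  have hL2 : 2 ≤ L := by omega
  obtain ⟨κm, hκm, hMk⟩ := hMk L (by omega)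
  obtain ⟨κL, hκL, hLB⟩ := hLB L (by omega)
  refine ⟨min κm κL, by positivity, fun κ k0 Raw Cl q Zσ Zε Zσ' Zε' m hq hsm hU hU0 hD J lam β hJ
    hμ hx α' κ' hκ0 hκ hα' n Λ₀ ε hε => ?_⟩
  obtain ⟨k2, k3⟩ := le_min_iff.1 k0
  obtain ⟨t, N, Q, Cd, JG, ht, hQ, hD⟩ := hD
  obtain ⟨CL, hLB⟩ := hLB Cd
  have rq : Rel J lam β q := ⟨hq.pot, hq.range, hμ, hx⟩
  have r0 : Rel J 0 (Kc / J) par0 := ⟨U1.pot_zero, fun _ h => absurd rfl h, (mul_zero _).symm, by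
    rw [mul_assoc, div_mul_cancel₀ _ hJ.ne']
    exact U4.tc_eq⟩
  have k0 := crit_par0 L 1 1 zero_le_one zero_le_one
  obtain ⟨K, hMark⟩ := markStmt α' (by linarith) (2 * q.R + 4)
  obtain ⟨k₀, hMark⟩ := hMark (Λ₀ * (2 * Q))
  obtain ⟨H₀, Qh, hQh, hO⟩ := holesW N ((Λ₀ + 1) * (2 * Q))
  obtain ⟨c, c0, hc⟩ := arith (C₁ := Q + Cm + CL + 18) hQ hQh le_rfl hQ (by omega) hL2 Λ₀
  have cL : (1 : ℝ) ≤ c := by exact_mod_cast c0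
  obtain ⟨Λ₁, hΛ₁⟩ : ∃ Λ₁, Λ₁ = 2 * (Λ₀ + 1) * c := ⟨_, rfl⟩
  obtain ⟨N', hN'⟩ : ∃ N', N' = n + H₀ + 1 + m + k₀ + (4 * ((Λ₀ + 1) * (2 * Q)) + 1) ^ 2 + Λ₁ :=
    ⟨_, rfl⟩
  obtain ⟨Γ, hΓ, r₀, hG⟩ := gapOf gapW N Λ₁
  obtain ⟨τ₁, hτ₁, B₁, h1⟩ := halfK (R := q.R) hL2 hU K le_rfl ht le_rfl hq.range hq.x_lo
    hq.x_hi hsm rq n N' Λ₁ hΓ
  obtain ⟨τ₀, hτ₀, B₀, h0⟩ := halfK (R := q.R) (R₁ := 0) hL2 hU0 K (Nat.zero_le _) ht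
    (Nat.zero_le _) (fun _ h => absurd rfl h) k0.ok.x_lo k0.ok.x_hi k0.small r0 n N' Λ₁ hΓ
  obtain ⟨c₀, hc₀, JL, hLB⟩ := hLB N'
  obtain ⟨δ, hδ, hfin⟩ := fin' m B₀ (Zσ ^ n) Zε (Zσ' ^ n) Zε' hc₀ (τ := min (min τ₁ τ₀) 1)
    (ε := ε / (c : ℝ) ^ (n + m)) (by positivity) (min_le_right _ _) (by positivity)
  obtain ⟨J₁, h1⟩ := h1 δ hδ
  obtain ⟨J₀, h0⟩ := h0 δ hδ
  obtain ⟨r₁, hc⟩ := hc (J₀ + J₁ + JL + JG + r₀ + 1) (8 * K + 4 * t + Q + Qh + 1)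
  refine ⟨r₁, fun r hr Λ b x y j hR' hb hΛ hs => ?_⟩
  obtain ⟨ρ, J', n1, n2, f0, e4, f2, -, f4, f5, f6, f7, f8, fQ, e6, e8, e5, -⟩ := hc r hr
  rw [add_mul, add_mul, add_mul] at n2
  rw [← hΛ₁] at e5
  have s9 := sc_ge (J := J') hL2
  have e1 : (Λ₀ + 1) * r = Λ₀ * r + r := by ring
  have e9 : Λ₁ * sc L J' ≤ N' * sc L J' := Nat.mul_le_mul_right _ (by omega)
  have e7 : 4 * ((Λ₀ + 1) * r) ≤ 4 * ((Λ₀ + 1) * (2 * Q)) * (r / Q + 1) := by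
    rw [mul_assoc 4, mul_add_one ((Λ₀ + 1) * (2 * Q))]
    omega
  set T := (Λ₀ + 1) * r with hT'
  have hΛ' : ∀ v ∈ Λ, zd v 0 ≤ T := fun v hv => (hΛ v hv).trans (by omega)
  have : NeZero (64 * (2 * T)) := ⟨by omega⟩
  set M := 64 * (2 * T) with hMd
  obtain ⟨P, b₁, p1, p2, b1, b2, b3, b4, dp, sW⟩ := hD α' κ' hκ0 hκ Λ b r T hR' hb fQ (by omega) hΛ'
  obtain ⟨sW, hB⟩ := sW M (by omega)
  obtain ⟨H, hH, a, hs', g4, gc⟩ := hO (dig Λ P t) T (r / Q) M sW (by omega) (by omega) e6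
    (fun v hv => hΛ' v (mem_dig.1 hv).1) (by omega)
  replace g4 := holes_mono g4 f2
  obtain ⟨k, hk, p, e, b', mg, mb⟩ := hMark κ' hκ0 hα' (r / Q) (by omega) _ b₁ b2
    fun v hv => (hΛ v (mem_dig.1 hv).1).trans e8
  have mg' : MkG (dig Λ P t) κ ρ p e := mg.mono hκ (by omega)
  choose u ν hch using fun i => hMk M _ _ J' _ _ (((mg'.mk1 i).mono k2 le_rfl).mkT' g4.box
    (by omega)) (by omega) (by omega) (by omega)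
  obtain ⟨⟨ε', ς, κ₁, hε', hς, hκ₁, sel⟩, n₀, q1, q2, q3⟩ := secA M _ _ _ H k a hs' p e b' g4 gc
    mg.injective (fun i => ⟨(mg.mk1 i).touch, (mg.mk1 i).rem⟩) mb.wall (by omega)
  have κ1 : κ₁ ≠ 0 := fun h => by
    rw [h, abs_zero] at hκ₁
    exact (pow_pos two_pos H).ne hκ₁
  have G : GD Cl L J' Λ₁ Γ c' η₁ M (dig Λ P t) (2 * T) ρ a hs' (mkS M p e) u ν :=
    ⟨g4, mg'.mkDat g4.box (by omega) (by omega) fun i => (hch i).mono η0.le (min_le_left _ _),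
      by omega, by omega, e5, rfl, fun B h => hB B (ρ - 1) J' h (by omega) (by omega) (by omega),
      hG M _ _ ρ _ (sW.mono (by omega)) g4.box (by omega) (by omega) (by omega) (by omega) e5 rfl⟩
  have hsp := spins_dig (r' := ρ) hs (fun p hp => (p1 p hp).2) (by omega)
  have p4 := B5a2.card_net (fun p hp => (p1 p hp).1) p2 (le_trans (by omega) e7)
  have w := fun {S : Prop} (h : (∀ v ∈ Λ, zd v 0 ≤ 2 * T) → (∀ z ∈ P, zd z 0 ≤ 2 * T) →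
      MkG (dig Λ P t) κ ρ p e → MkB (dig Λ P t) b₁ b' (2 * q.R + 4) K p e →
      (∀ v, v ∉ Λ → b₁ v = b v) → (∀ z ∈ P, ∀ z' ∈ P, z ≠ z' → ρ < zd z z') →
      (∀ z ∈ P, ∀ v, zd v z ≤ ρ → v ∉ dig Λ P t → b₁ v = b₁ z) → (∀ z ∈ P, ∀ i, ρ < zd (p i) z) →
      Spins (dig Λ P t) ρ (Sum.elim x y) → S) => h (fun v hv => (hΛ' v hv).trans (by omega))
    (fun z hz => (p1 z hz).1.trans (by omega)) mg' mb b1
    (fun z hz z' hz' h => f6.trans_lt (p2 z hz z' hz' h))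
    (fun z hz v hv => b3 z hz v (by omega))
    (fun z hz i => f4.trans_lt (b4 z hz _ _ _ (by omega) (by omega) (mg.mk1 i))) hsp
  obtain ⟨f₀, f₁, ζ, ζ₁, a1, -, a3, a4, a5, -, a7⟩ := w (h1 J' (by omega) M Λ P _ ρ H k a hs' p e
    u ν ε' ς κ₁ κ b b₁ b' x y j G (by omega) (by omega) hε' hς κ1 sel)
  obtain ⟨u₀, u₁, ζ₂, ζ₃, c1, c2, c3, c4, c5, c6, c7⟩ := w (h0 J' (by omega) M Λ P _ ρ H k a hs'
    p e u ν ε' ς κ₁ κ b b₁ b' x y j G (by omega) (by omega) hε' hς κ1 sel)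
  change _ = _ * lcor (gibbs J 0 (fun _ => 0) _ _ _) _ _ _ at c1
  set I := (dig Λ P t).image (prj M) with hI
  set ℓ : ℝ := ((sc L J' : ℕ) : ℝ) with hℓ
  have l0 : 0 < ℓ := by rw [hℓ]; exact_mod_cast (by omega : 0 < sc L J')
  have ν0 : 0 < ∏ i, ν i J' := prod_pos fun i _ => (hch i).nu_pos le_rfl
  have lb : c₀ ≤ |fS I a hs' (mkS M p e) ε' ς y j ℓ (∏ i, ν i J') par0 1 Fin.elim0 ∅| := by
    have t1 := hLB J' (by omega) M _ _ ρ H k a hs' p e u ν n₀ (dp.mono f6)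
      g4.box (not_mem_image g4.box (by omega) g4.a_le (g4.a_out a (by simp [zd_self])))
      (fun i => not_mem_image g4.box (by omega) (g4.h_le i) (g4.h_out i _ (by simp [zd_self]))) gc
      (by omega) (by omega) (mg'.mono k3 le_rfl) (by omega) (by omega) (by omega) le_rfl
      (fun i => (hch i).mono η0.le (min_le_right _ _)) q1 q2
    have t2 : sB par0 I b' (1 : Fin k → _) 1 = Yn I (tc • pwI I) n₀ := by
      simpa only [sB, Pi.one_apply, one_mul] using q3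
    have t4 : 0 < Zw par0 (pwI I) 1 := DH1.Zw_plus_pos g4.box (by omega) H2D.tc_pos
    have t5 : (1 : ℝ) ≤ 2 ^ H := one_le_pow₀ one_le_two
    rw [fS_empty (y := y) (j := j) sel (fun i => mem_image_of_mem _ (hsp.ins (Sum.inr i) _
      ((zd_add_dir _ _).trans (by omega)))) ν0, t2, hκ₁, abs_of_pos t4, div_mul_eq_mul_div,
      le_div_iff₀ (by positivity), ← mul_assoc]
    exact (t1.trans (le_abs_self _)).trans (le_mul_of_one_le_left (abs_nonneg _) t5)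
  have τ1 : min (min τ₁ τ₀) 1 ≤ τ₁ := (min_le_left _ _).trans (min_le_left _ _)
  have τ0 : min (min τ₁ τ₀) 1 ≤ τ₀ := (min_le_left _ _).trans (min_le_right _ _)
  have key := hfin _ _ _ _ _ _ _ _ _ _ _ _ a4 a5 c4 c5 (τ1.trans a3) (τ0.trans c3) c2 lb c6
    ((mul_le_mul_of_nonneg_right τ1 (abs_nonneg _)).trans a7)
    ((mul_le_mul_of_nonneg_right τ0 (abs_nonneg _)).trans c7)
  rw [a1, c1] at key
  exact endg l0 (by exact_mod_cast (by omega : 0 < r)) cL (by rw [hℓ]; exact_mod_cast e4) key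

end Vale.Agent.P144Z
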