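import Vale.Agent.P144D.I.V.DefsL
import Vale.Agent.P144E.Tilt.Tilt

/-!
A product of local observables is, contour by contour, a combination of small corrections.
-/

namespace Vale.Agent.P144Z

open Finset

/-- A product of local observables is a combination of small corrections of any range. -/
def TiltPU : Prop :=
  ∀ (C θ : ℝ) (k₀ : ℕ), 1 ≤ C → 0 < θ → ∃ B : ℝ, ∀ q : Par, 0 < q.x → ∀ (M : ℕ) [NeZero M]
    (Λ P : Finset (ℤ × ℤ)) (T K : ℕ) (O : ℤ × ℤ → (Tor M × Fin 2 → Bool) → ℝ),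
    (∀ v ∈ Λ, zd v 0 ≤ T) → (∀ p ∈ P, zd p 0 ≤ T ∧ ∀ v, zd v p ≤ 1 → v ∉ Λ) →
    (∀ p ∈ P, ∀ p' ∈ P, p ≠ p' → 2 * K < zd p p') → P.card ≤ k₀ →
    4 * (T + K + q.R + 2) ≤ M → LocE P K O → (∀ p n, C⁻¹ ≤ O p n ∧ O p n ≤ C) →
    ∃ (u : Finset (ℤ × ℤ) → Cor M) (c : Finset (ℤ × ℤ) → ℝ),
      (∀ U, (u U).Ok ∧ (u U).Off (pwI (Λ.image (prj M))) ∧ (u U).Le (2 * K) θ) ∧
      ∑ U ∈ P.powerset, |c U| ≤ B ∧ ∀ n, (∏ p ∈ P, O p n) / Zw q (pwI (Λ.image (prj M))) 1 =
        ∑ U ∈ P.powerset,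
          c U * (Real.exp (∑ X, u U X n) / ZwC q (u U) (pwI (Λ.image (prj M))) 1)

open TiltH in
theorem tiltPU : TiltPU := by
  intro C θ k₀ hC hθ
  set th := min θ 1 with hth
  have t0 : 0 < th := lt_min hθ one_pos
  have t1 : th ≤ 1 := min_le_right _ _
  have t2 : th ≤ θ := min_le_left _ _
  have C0 : 0 < C := by linarith
  have C1 : 1 ≤ C / th := (one_le_div t0).2 (by linarith)
  refine ⟨(4 * (C / th)) ^ k₀, fun q hx M _ Λ P T K O hΛ hP hs hk hM hO hb => ?_⟩
  set R := regOf M Λ false with hR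
  change ∃ (u : Finset (ℤ × ℤ) → Cor M) (c : Finset (ℤ × ℤ) → ℝ),
    (∀ U, (u U).Ok ∧ (u U).Off R.pw ∧ (u U).Le (2 * K) θ) ∧
    ∑ U ∈ P.powerset, |c U| ≤ _ ∧ ∀ n, (∏ p ∈ P, O p n) / Zw q R.pw 1 =
      ∑ U ∈ P.powerset, c U * (Real.exp (∑ X, u U X n) / ZwC q (u U) R.pw 1)
  have c0 : R.cor q = 0 := DH1.cor_plus _ q
  have g0 : ∀ p n, 0 ≤ th * (O p n / C) ∧ th * (O p n / C) ≤ th := fun p n => by
    have h1 : 0 < O p n := (inv_pos.2 C0).trans_le (hb p n).1
    exact ⟨by positivity, mul_le_of_le_one_right t0.le ((div_le_one C0).2 (hb p n).2)⟩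
  set w : ℤ × ℤ → (Tor M × Fin 2 → Bool) → ℝ := fun p n => Real.log (1 + th * (O p n / C)) with hw
  have w1 : ∀ p n, Real.exp (w p n) = 1 + th * (O p n / C) := fun p n =>
    Real.exp_log (by linarith [(g0 p n).1])
  have w2 : ∀ p n, |w p n| ≤ θ := fun p n => by
    have h1 := Real.log_le_sub_one_of_pos (show 0 < 1 + th * (O p n / C) by linarith [(g0 p n).1])
    rw [abs_of_nonneg (Real.log_nonneg (by linarith [(g0 p n).1]))]
    linarith [(g0 p n).2]
  have hΛ' : ∀ v ∈ Λ, zd v 0 ≤ T + K := fun v hv => (hΛ v hv).trans (Nat.le_add_right _ _)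
  have lO : ∀ p ∈ P, BoxLoc (T + K + 1) (O p) := fun p hp n n' h => hO p hp n n' fun e he _ => by
    have h1 := G.mem_ball.1 he
    have h2 := tdist_triangle e.1 (prj M p) 0
    have h3 := (H3.tdist_prj_zero (M := M) p).trans (hP p hp).1
    exact h e (by omega)
  have Z0 : ZwC q (R.cor q) R.pw 1 ≠ 0 := (avg hx hΛ' hM false).1
  set ρ : Finset (ℤ × ℤ) → ℝ := fun U =>
    ZwC q (R.cor q) R.pw (fun n => 1 * ∏ p ∈ U ∩ P, Real.exp (w p n)) / ZwC q (R.cor q) R.pw 1
    with hρ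
  have r1 : ∀ U, 1 ≤ ρ U ∧ ρ U ≤ 2 ^ P.card := fun U => by
    refine avg_bd hx hΛ' hM false (fun n n' h => ?_) fun n => ?_
    · simp only [w1]
      exact congrArg _ (prod_congr rfl fun p hp => by rw [lO p (mem_inter.1 hp).2 n n' h])
    · simp only [w1, one_mul]
      refine ⟨one_le_prod fun p _ => by linarith [(g0 p n).1], (prod_le_prod (g := fun _ => 2)
        (fun p _ => by linarith [(g0 p n).1]) fun p _ => by linarith [(g0 p n).2]).trans ?_⟩
      rw [prod_const]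
      exact pow_le_pow_right₀ one_le_two (card_le_card inter_subset_right)
  have Zu : ∀ U, ZwC q (TiltH.ext (U ∩ P) K w) R.pw 1 = ρ U * Zw q R.pw 1 := fun U => by
    rw [← ZwC_zero, ← zero_add (TiltH.ext _ _ _), ← c0, ZwC_ext, hρ, div_mul_cancel₀ _ Z0]
    rfl
  rw [c0, ZwC_zero] at Z0
  refine ⟨fun U => TiltH.ext (U ∩ P) K w,
    fun U => (C / th) ^ P.card * (-1) ^ (P \ U).card * ρ U, fun U => ⟨⟨fun n => ?_, ?_⟩, ?_, ?_⟩,
    ?_, fun n => ?_⟩
  · refine sum_eq_zero fun p hp => absurd (mem_filter.1 hp).2.2 (Nonempty.ne_empty ⟨prj M p, ?_⟩)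
    exact G.mem_ball.2 (by rw [tdist_self]; omega)
  · intro X n n' h
    refine sum_congr rfl fun p hp => ?_
    obtain ⟨h1, -, rfl⟩ := mem_filter.1 hp
    simp only [hw, hO p (mem_inter.1 h1).2 n n' h]
  · intro X hX n
    refine sum_eq_zero fun p hp => ?_
    obtain ⟨h1, -, rfl⟩ := mem_filter.1 hp
    obtain ⟨h2, h3⟩ := hP p (mem_inter.1 h1).2
    have h4 := hX (prj M p) (G.mem_ball.2 (by rw [tdist_self]; omega))
    have h5 : ∀ f, tdist f (prj M p) ≤ 1 → f ∉ R.In := fun f hf =>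
      DC.not_in hΛ h2 (by omega) h3 hf
    have h6 := h5 (prj M p) (by rw [tdist_self]; omega)
    have h7 := h5 (oth (prj M p, 0)) ((DC.near_oth _ _).trans (by rw [tdist_self]))
    have h8 : R.pw (prj M p, 0) = 0 := by
      rw [Reg.pw, if_neg (by simp [hR, regOf]), if_neg (not_or.2 ⟨h6, h7⟩)]
    rw [flux, h8] at h4
    simp at h4
  · refine DC.le_terms (U ∩ P) (fun _ => True) (fun p => ball (prj M p) K) (fun _ => θ) w
      (fun p _ n => w2 p n) (fun p _ x hx y hy => ?_) (fun x => ?_) fun X n => rfl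
    · have h3 := G.mem_ball.1 hx
      have h4 := G.mem_ball.1 hy
      have h5 := tdist_triangle x (prj M p) y
      rw [tdist_comm (prj M p)] at h5
      omega
    · have h3 : ((U ∩ P).filter fun p => x ∈ ball (prj M p) K).card ≤ 1 := by
        refine card_le_one.2 fun p hp p' hp' => by_contra fun e => ?_
        obtain ⟨a1, a2⟩ := mem_filter.1 hp
        obtain ⟨a3, a4⟩ := mem_filter.1 hp'
        have a5 := hs p (mem_inter.1 a1).2 p' (mem_inter.1 a3).2 e
        rw [← H3.tdist_prj (M := M) (hP p (mem_inter.1 a1).2).1 (hP p' (mem_inter.1 a3).2).1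
          (by omega)] at a5
        have a6 := tdist_triangle (prj M p) x (prj M p')
        rw [tdist_comm _ x] at a6
        have a7 := G.mem_ball.1 a2
        have a8 := G.mem_ball.1 a4
        omega
      rw [sum_const, nsmul_eq_mul]
      exact mul_le_of_le_one_left hθ.le (by exact_mod_cast h3)
  · refine (sum_le_card_nsmul _ _ ((C / th) ^ P.card * 2 ^ P.card) fun U _ => ?_).trans ?_
    · rw [abs_mul, abs_mul, abs_pow (-1), abs_neg, abs_one, one_pow, mul_one,
        abs_of_nonneg (by positivity), abs_of_nonneg (by linarith [(r1 U).1])]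
      exact mul_le_mul_of_nonneg_left (r1 U).2 (by positivity)
    · rw [card_powerset, nsmul_eq_mul]
      refine le_trans (le_of_eq ?_) (pow_le_pow_right₀ (by linarith) hk)
      rw [show (4 : ℝ) = 2 * 2 by norm_num]
      push_cast
      simp only [mul_pow]
      ring
  · have e1 : ∀ p, O p n = C / th * (Real.exp (w p n) + -1) := fun p => by
      rw [w1]
      field_simp
      ring
    rw [prod_congr rfl fun p _ => e1 p, prod_mul_distrib, prod_add, prod_const, mul_sum, sum_div]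
    refine sum_congr rfl fun U hU => ?_
    have h : ∑ X, TiltH.ext (U ∩ P) K w X n = ∑ p ∈ U ∩ P, w p n := by
      simp only [TiltH.ext, true_and]
      exact sum_fiberwise_of_maps_to (fun _ _ => mem_univ _) _
    have h1 : ρ U ≠ 0 := by linarith [(r1 U).1]
    rw [prod_const, Zu, h, Real.exp_sum, inter_eq_left.2 (mem_powerset.1 hU)]
    field_simp

end Vale.Agent.P144Z
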